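import Vale.Agent.P226.Chain

/-!
# Finite reduction for the Gaussian propeller conjecture

If the bound `F ≤ C` (with `C ≥ 9/(8π)`) holds for partitions into `14000` cells, in every
dimension, then it holds for all finite partitions in all dimensions.
-/

open Vale.Agent.P226 in
theorem Vale.Agent.Results.P226.FiniteReduction.result {C : ℝ} (hC : 9 / (8 * Real.pi) ≤ C)
    (hyp : ∀ (d : ℕ) (A : Fin 14000 → Set (Euc d)), IsMeasPartition A → propF A ≤ C)
    (d k : ℕ) (A : Fin k → Set (Euc d)) (hA : IsMeasPartition A) : propF A ≤ C :=
  finite_reduction hC hyp d k A hA
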