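import Vale.Agent.P226.Reduce
import Vale.Agent.P226.DataK14
import Vale.Agent.P226.DataK13
import Vale.Agent.P226.DataK12
import Vale.Agent.P226.DataK11
import Vale.Agent.P226.DataK10

/-!
# Gaussian propeller conjecture: reduction to partitions into 9 cells
-/

namespace Vale.Agent.Results.P226.FiniteReductionK9

open Vale.Agent.P226

/-- For every `C ≥ 9/(8π)`: if all measurable partitions into `9` cells, in all dimensions, have
`F ≤ C`, then so do all finite measurable partitions of all `R^d`. -/
theorem result {C : ℝ} (hC : 9 / (8 * Real.pi) ≤ C)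
    (hyp : ∀ (d : ℕ) (A : Fin 9 → Set (Euc d)), IsMeasPartition A → propF A ≤ C)
    (d k : ℕ) (A : Fin k → Set (Euc d)) (hA : IsMeasPartition A) : propF A ≤ C := by
  refine finite_reduction_of hC (fun k d Z hk hZ => ?_) hyp d k A hA
  by_cases h : 14000 ≤ k
  · exact obtuse_bound h hZ
  · by_cases h14 : 14 ≤ k
    · exact obtuse_K14 h14 (by omega) hZ
    · have h3 : k = 10 ∨ k = 11 ∨ k = 12 ∨ k = 13 := by omega
      rcases h3 with rfl | rfl | rfl | rfl
      · exact obtuse_K10 le_rfl le_rfl hZ
      · exact obtuse_K11 le_rfl le_rfl hZ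
      · exact obtuse_K12 le_rfl le_rfl hZ
      · exact obtuse_K13 le_rfl le_rfl hZ

end Vale.Agent.Results.P226.FiniteReductionK9
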